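import Mathlib

/-!
The model of the single-sample matroid prophet problem: an online rule sees the sample, a seed,
the elements accepted so far and the arriving element with its value.
-/

namespace Vale.Agent.P331

open scoped NNReal

/-- The accepted set after the arrivals in the list, starting from the set `A`. -/
def accepted {α : Type} [DecidableEq α] {K : Type}
    (rule : (α → ℝ≥0) → K → Finset α → α → ℝ≥0 → Bool) (S : α → ℝ≥0) (k : K)
    (V : α → ℝ≥0) : List α → Finset α → Finset α
  | [], A => A
  | e :: l, A =>
      accepted rule S k V l (if rule S k A e (V e) = true then insert e A else A)

open Classical in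
/-- The largest weight of an independent set. -/
noncomputable def opt {α : Type} [Fintype α] (M : Matroid α) (v : α → ℝ≥0) : ℝ≥0 :=
  (Finset.univ.filter fun I : Finset α => M.Indep (I : Set α)).sup fun I => ∑ a ∈ I, v a

end Vale.Agent.P331
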