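import Vale.Agent.P331.Pointwise

/-!
Integration of the pointwise inequality over independent samples and values.
-/

namespace Vale.Agent.P331

open Finset MeasureTheory
open scoped NNReal ENNReal

variable {α : Type} [Fintype α] (M : Matroid α) (L : ℕ)

theorem measurable_finset_sup {ι β : Type*} [MeasurableSpace β] (s : Finset ι)
    (f : ι → β → ℝ≥0) (hf : ∀ i ∈ s, Measurable (f i)) :
    Measurable fun b => s.sup fun i => f i b := by
  classical
  induction s using Finset.induction with
  | empty => simp
  | insert i s hi ih =>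
    simp only [sup_insert]
    exact (hf i (mem_insert_self i s)).max (ih fun j hj => hf j (mem_insert_of_mem hj))

theorem measurable_top : Measurable fun S : α → ℝ≥0 => top M S :=
  measurable_finset_sup _ _ fun a _ => measurable_pi_apply a

theorem measurable_opt : Measurable fun v : α → ℝ≥0 => opt M v :=
  measurable_finset_sup _ _ fun I _ => Finset.measurable_sum I fun a _ => measurable_pi_apply a

theorem measurable_thresholdRule [DecidableEq α] (k : Fin (L + 2)) (A : Finset α) (e : α) :
    Measurable fun p : (α → ℝ≥0) × ℝ≥0 => thresholdRule M L p.1 k A e p.2 := by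
  have hp : MeasurableSet {p : (α → ℝ≥0) × ℝ≥0 | passes M L p.1 k p.2} := by
    by_cases hk : (k : ℕ) ≤ L
    · simp only [passes, hk, if_true]
      exact measurableSet_le (((measurable_top M).comp measurable_fst).div_const _) measurable_snd
    · simp only [passes, hk, if_false]
      exact measurableSet_lt ((measurable_top M).comp measurable_fst) measurable_snd
  refine measurable_to_bool ?_
  have he : (fun p : (α → ℝ≥0) × ℝ≥0 => thresholdRule M L p.1 k A e p.2) ⁻¹' {true} =
      {p | passes M L p.1 k p.2} ∩ {_p | M.Indep ((insert e A : Finset α) : Set α)} := by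
    ext p; simp [thresholdRule]
  rw [he]
  exact hp.inter (MeasurableSet.const _)

theorem measurable_levelGain (j : ℕ) :
    Measurable fun ω : α → ℝ≥0 × ℝ≥0 => levelGain M (fun a => (ω a).1) (fun a => (ω a).2) j := by
  classical
  have hV : ∀ a, Measurable fun ω : α → ℝ≥0 × ℝ≥0 => (ω a).2 := fun a =>
    (measurable_pi_apply a).snd
  have ht : Measurable fun ω : α → ℝ≥0 × ℝ≥0 => top M fun a => (ω a).1 :=
    (measurable_top M).comp (measurable_pi_lambda _ fun a => (measurable_pi_apply a).fst)
  refine measurable_finset_sup _ _ fun I _ => ?_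
  refine Measurable.ite ?_ ((ht.div_const _).mul_const _) measurable_const
  simp only [Set.setOf_forall]
  exact MeasurableSet.iInter fun a => MeasurableSet.iInter fun _ =>
    measurableSet_le (ht.div_const _) (hV a)

theorem measurable_singleGain :
    Measurable fun ω : α → ℝ≥0 × ℝ≥0 => singleGain M (fun a => (ω a).1) (fun a => (ω a).2) := by
  classical
  have hV : ∀ a, Measurable fun ω : α → ℝ≥0 × ℝ≥0 => (ω a).2 := fun a =>
    (measurable_pi_apply a).snd
  have ht : Measurable fun ω : α → ℝ≥0 × ℝ≥0 => top M fun a => (ω a).1 :=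
    (measurable_top M).comp (measurable_pi_lambda _ fun a => (measurable_pi_apply a).fst)
  refine measurable_finset_sup _ _ fun a _ => Measurable.ite ?_ (hV a) measurable_const
  simp only [Set.setOf_and, Set.setOf_forall]
  exact (measurableSet_lt ht (hV a)).inter (MeasurableSet.iInter fun b =>
    MeasurableSet.iInter fun _ => MeasurableSet.iInter fun _ => measurableSet_le (hV b) ht)

theorem measurable_totalGain : Measurable fun ω : α → ℝ≥0 × ℝ≥0 => totalGain M L ω :=
  (Finset.measurable_sum _ fun j _ => measurable_levelGain M j).add (measurable_singleGain M)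

theorem measurePreserving_flip [DecidableEq α] (D : α → Measure ℝ≥0)
    [∀ a, IsProbabilityMeasure (D a)] (A : Finset α) :
    MeasurePreserving (flip A) (Measure.pi fun a => (D a).prod (D a))
      (Measure.pi fun a => (D a).prod (D a)) := by
  have h := measurePreserving_pi (fun a => (D a).prod (D a)) (fun a => (D a).prod (D a))
    (f := fun a p => if a ∈ A then Prod.swap p else p) (fun a => by
      by_cases ha : a ∈ A
      · simp only [ha, if_true]; exact Measure.measurePreserving_swap
      · simp only [ha, if_false]; exact MeasurePreserving.id _)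
  exact h

/-- The expected optimum is at most twenty-eight times the expected total gain. -/
theorem integral_opt_le [DecidableEq α] (hL : ∀ I : Finset α, M.Indep (I : Set α) → I.card ≤ 2 ^ L)
    (D : α → Measure ℝ≥0) [∀ a, IsProbabilityMeasure (D a)] :
    ∫⁻ ω, (opt M (fun a => (ω a).2) : ℝ≥0∞) ∂Measure.pi (fun a => (D a).prod (D a)) ≤
      28 * ∫⁻ ω, (totalGain M L ω : ℝ≥0∞) ∂Measure.pi (fun a => (D a).prod (D a)) := by
  set P := Measure.pi fun a => (D a).prod (D a)
  have ho : Measurable fun ω : α → ℝ≥0 × ℝ≥0 => (opt M (fun a => (ω a).2) : ℝ≥0∞) :=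
    ((measurable_opt M).comp (measurable_pi_lambda _ fun a =>
      (measurable_pi_apply a).snd)).coe_nnreal_ennreal
  have hg : Measurable fun ω : α → ℝ≥0 × ℝ≥0 => (totalGain M L ω : ℝ≥0∞) :=
    (measurable_totalGain M L).coe_nnreal_ennreal
  have hf := measurePreserving_flip D
  have hsum : ∀ {F : (α → ℝ≥0 × ℝ≥0) → ℝ≥0∞}, Measurable F →
      ∫⁻ ω, ∑ A : Finset α, F (flip A ω) ∂P = (Fintype.card (Finset α) : ℝ≥0∞) * ∫⁻ ω, F ω ∂P := by
    intro F hF
    rw [lintegral_finsetSum (f := fun (A : Finset α) ω => F (flip A ω)) univ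
      (fun A _ => hF.comp (hf A).measurable)]
    simp only [(hf _).lintegral_comp hF, sum_const, card_univ, nsmul_eq_mul, P]
  have key : ∫⁻ ω, ∑ A : Finset α, (opt M (fun a => (flip A ω a).2) : ℝ≥0∞) ∂P ≤
      ∫⁻ ω, ∑ A : Finset α, 28 * (totalGain M L (flip A ω) : ℝ≥0∞) ∂P := by
    refine lintegral_mono fun ω => ?_
    rw [← mul_sum, ← ENNReal.coe_ofNat, ← ENNReal.coe_finsetSum, ← ENNReal.coe_finsetSum,
      ← ENNReal.coe_mul, ENNReal.coe_le_coe]
    exact sum_opt_le M L hL ω
  rw [hsum ho, hsum (F := fun ω => 28 * (totalGain M L ω : ℝ≥0∞)) (hg.const_mul _)] at key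
  rw [lintegral_const_mul _ hg] at key
  exact (ENNReal.mul_le_mul_iff_right (by simp) (by simp)).1 key

end Vale.Agent.P331
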