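import Vale.Agent.P331.Rule

/-!
The pointwise inequality: summed over all exchanges of samples with values, the optimum is at
most a constant times the gains of the options.
-/

namespace Vale.Agent.P331

open Finset
open scoped NNReal symmDiff

variable {α : Type} [Fintype α] [DecidableEq α] (M : Matroid α) (L : ℕ)

/-- Exchange sample and value on the elements of `A`. -/
def flip (A : Finset α) (ω : α → ℝ≥0 × ℝ≥0) (a : α) : ℝ≥0 × ℝ≥0 :=
  if a ∈ A then (ω a).swap else ω a

omit [Fintype α] in
theorem flip_flip (A B : Finset α) (ω : α → ℝ≥0 × ℝ≥0) :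
    flip B (flip A ω) = flip (B ∆ A) ω := by
  funext a
  by_cases hA : a ∈ A <;> by_cases hB : a ∈ B <;>
    simp [flip, hA, hB, Finset.mem_symmDiff]

omit [Fintype α] in
theorem max_flip (A : Finset α) (ω : α → ℝ≥0 × ℝ≥0) (a : α) :
    max (flip A ω a).1 (flip A ω a).2 = max (ω a).1 (ω a).2 := by
  by_cases hA : a ∈ A <;> simp [flip, hA, max_comm]

theorem value_le_levels (w v : ℝ≥0) (hv : v ≤ w) (n : ℕ) :
    v ≤ w / 2 ^ n + 2 * ∑ j ∈ range (n + 1), if w / 2 ^ j ≤ v then w / 2 ^ j else 0 := by
  induction n with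
  | zero => simpa using le_add_right hv
  | succ n ih =>
    rw [sum_range_succ]
    by_cases h : w / 2 ^ (n + 1) ≤ v
    · rw [if_pos h]
      refine ih.trans ?_
      have h2 : (2 : ℝ≥0) * (w / 2 ^ (n + 1)) = w / 2 ^ n := by
        rw [pow_succ]; field_simp
      rw [mul_add, h2]
      calc w / 2 ^ n + 2 * _ = 0 + (2 * _ + w / 2 ^ n) := by rw [zero_add, add_comm]
        _ ≤ _ := add_le_add zero_le le_rfl
    · exact (not_le.1 h).le.trans (le_add_right le_rfl)

theorem sum_levels_le (w : ℝ≥0) (n : ℕ) : ∑ j ∈ range n, w / 2 ^ j ≤ 2 * w := by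
  suffices h : (∑ j ∈ range n, w / 2 ^ j) + 2 * (w / 2 ^ n) = 2 * w by
    exact le_trans (le_add_right le_rfl) h.le
  induction n with
  | zero => simp
  | succ n ih =>
    rw [sum_range_succ, add_assoc]
    convert ih using 2
    rw [pow_succ]; field_simp; norm_num

/-- With the largest pair split so that its maximum is in the sample, the levels give the
optimum up to a multiple of that maximum. -/
theorem opt_le_levels (hL : ∀ I : Finset α, M.Indep (I : Set α) → I.card ≤ 2 ^ L)
    (S V V' : α → ℝ≥0) (e : α) (w : ℝ≥0) (htop : top M S = w)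
    (hV : ∀ a ∈ nonloops M, V a ≤ w) (hsame : ∀ a, a ≠ e → V' a = V a) :
    opt M V ≤ 5 * w + 2 * ∑ j ∈ range (L + 1), levelGain M S V' j := by
  classical
  refine Finset.sup_le fun I hI => ?_
  have hIi : M.Indep (I : Set α) := (mem_filter.1 hI).2
  have hn : ∀ a ∈ I, a ∈ nonloops M := fun a ha =>
    mem_filter.2 ⟨mem_univ _, hIi.subset (by simpa using ha)⟩
  have hlev : ∀ j, (∑ a ∈ I, if w / 2 ^ j ≤ V a then w / 2 ^ j else 0) ≤
      levelGain M S V' j + w / 2 ^ j := by
    intro j
    rw [← sum_filter, sum_const, nsmul_eq_mul]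
    set Q := I.filter fun a => w / 2 ^ j ≤ V a
    have hQ : (Q.erase e).card + 1 ≥ Q.card := by
      have := pred_card_le_card_erase (a := e) (s := Q); omega
    have hQi : M.Indep ((Q.erase e : Finset α) : Set α) :=
      hIi.subset (by exact_mod_cast (erase_subset e Q).trans (filter_subset _ I))
    have hg : (w / 2 ^ j) * (Q.erase e).card ≤ levelGain M S V' j := by
      refine le_trans ?_ (le_sup (b := Q.erase e) (mem_filter.2 ⟨mem_univ _, hQi⟩))
      rw [if_pos]
      · rw [htop]
      · intro a ha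
        rw [htop, hsame a (ne_of_mem_erase ha)]
        exact (mem_filter.1 (mem_of_mem_erase ha)).2
    calc (Q.card : ℝ≥0) * (w / 2 ^ j) ≤ ((Q.erase e).card + 1) * (w / 2 ^ j) := by
          gcongr; exact_mod_cast hQ
      _ = (w / 2 ^ j) * (Q.erase e).card + w / 2 ^ j := by ring
      _ ≤ _ := by gcongr
  calc ∑ a ∈ I, V a
      ≤ ∑ a ∈ I, (w / 2 ^ L + 2 * ∑ j ∈ range (L + 1),
          if w / 2 ^ j ≤ V a then w / 2 ^ j else 0) :=
        sum_le_sum fun a ha => value_le_levels w (V a) (hV a (hn a ha)) L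
    _ = I.card * (w / 2 ^ L) + 2 * ∑ j ∈ range (L + 1),
          ∑ a ∈ I, (if w / 2 ^ j ≤ V a then w / 2 ^ j else 0) := by
        rw [sum_add_distrib, sum_const, nsmul_eq_mul, ← mul_sum, sum_comm]
    _ ≤ w + 2 * ∑ j ∈ range (L + 1), (levelGain M S V' j + w / 2 ^ j) := by
        gcongr with j
        · calc (I.card : ℝ≥0) * (w / 2 ^ L) ≤ (2 ^ L : ℕ) * (w / 2 ^ L) := by
                gcongr; exact_mod_cast hL I hIi
            _ = w := by push_cast; field_simp
        · exact hlev j
    _ ≤ w + 2 * (∑ j ∈ range (L + 1), levelGain M S V' j + 2 * w) := by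
        rw [sum_add_distrib]; gcongr; exact sum_levels_le w _
    _ = 5 * w + 2 * ∑ j ∈ range (L + 1), levelGain M S V' j := by ring

omit [DecidableEq α] in
/-- With the largest pair split so that its maximum is a value and the runner-up is sampled,
the top value is gained. -/
theorem top_le_gain (ω : α → ℝ≥0 × ℝ≥0) (e : α) (he : e ∈ nonloops M)
    (hmax : ∀ a ∈ nonloops M, (ω a).1 ≤ (ω e).2)
    (hrest : ∀ a ∈ nonloops M, a ≠ e → (ω a).2 ≤ top M fun a => (ω a).1) :
    (ω e).2 ≤ totalGain M L ω := by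
  classical
  set S := fun a => (ω a).1
  set V := fun a => (ω a).2
  have hle : top M S ≤ V e := Finset.sup_le hmax
  rcases hle.lt_or_eq with h | h
  · refine le_trans ?_ (le_add_left le_rfl)
    refine le_trans ?_ (le_sup (b := e) he)
    rw [if_pos ⟨h, hrest⟩]
  · refine le_trans ?_ (le_add_right le_rfl)
    refine le_trans ?_ (single_le_sum (fun _ _ => zero_le) (mem_range.2 (Nat.succ_pos L)))
    have hi : M.Indep (({e} : Finset α) : Set α) := by
      simpa [nonloops] using he
    refine le_trans ?_ (le_sup (b := {e}) (mem_filter.2 ⟨mem_univ _, hi⟩))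
    rw [if_pos (by intro a ha; rw [mem_singleton] at ha; subst ha; simpa [S, V] using hle)]
    simp [h, S, V]

theorem sum_comp_flip (B : Finset α) (g : (α → ℝ≥0 × ℝ≥0) → ℝ≥0) (ω : α → ℝ≥0 × ℝ≥0) :
    ∑ A : Finset α, g (flip B (flip A ω)) = ∑ A : Finset α, g (flip A ω) := by
  simp_rw [flip_flip]
  exact Equiv.sum_comp
    (Function.Involutive.toPerm (fun A => B ∆ A) (fun A => symmDiff_symmDiff_cancel_left B A))
    fun A => g (flip A ω)

/-- Summed over all exchanges, the optimum is at most twenty-eight times the total gain. -/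
theorem sum_opt_le (hL : ∀ I : Finset α, M.Indep (I : Set α) → I.card ≤ 2 ^ L)
    (ω : α → ℝ≥0 × ℝ≥0) :
    ∑ A : Finset α, opt M (fun a => (flip A ω a).2) ≤
      28 * ∑ A : Finset α, totalGain M L (flip A ω) := by
  classical
  by_cases hne : (nonloops M).Nonempty
  swap
  · refine le_trans (le_of_eq (sum_eq_zero fun A _ => le_antisymm ?_ zero_le)) zero_le
    refine Finset.sup_le fun I hI => le_of_eq (sum_eq_zero fun a ha => ?_)
    exact absurd ⟨a, mem_filter.2 ⟨mem_univ _, (mem_filter.1 hI).2.subset (by simpa using ha)⟩⟩ hne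
  let m : α → ℝ≥0 := fun a => max (ω a).1 (ω a).2
  obtain ⟨e, he, hem⟩ := exists_max_image (nonloops M) m hne
  obtain ⟨f, hf⟩ : ∃ f, (f = e ∧ ∀ a ∈ nonloops M, a = e) ∨ (f ∈ nonloops M ∧ f ≠ e ∧
      ∀ a ∈ nonloops M, a ≠ e → m a ≤ m f) := by
    by_cases h : ((nonloops M).erase e).Nonempty
    · obtain ⟨f, hf, hfm⟩ := exists_max_image _ m h
      exact ⟨f, Or.inr ⟨mem_of_mem_erase hf, ne_of_mem_erase hf,
        fun a ha hae => hfm a (mem_erase.2 ⟨hae, ha⟩)⟩⟩
    · exact ⟨e, Or.inl ⟨rfl, fun a ha => by_contra fun hae => h ⟨a, mem_erase.2 ⟨hae, ha⟩⟩⟩⟩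
  set Bs : Fin 4 → Finset α := ![∅, {e}, {f}, {e} ∆ {f}] with hBs
  have key : ∀ η, (∀ a, max (η a).1 (η a).2 = m a) →
      opt M (fun a => (η a).2) ≤ 7 * ∑ i, totalGain M L (flip (Bs i) η) := by
    intro η hη
    have hle1 : ∀ a, (η a).1 ≤ m a := fun a => hη a ▸ le_max_left _ _
    have hle2 : ∀ a, (η a).2 ≤ m a := fun a => hη a ▸ le_max_right _ _
    -- the maximum in the sample
    obtain ⟨i, hi01, hi⟩ : ∃ i : Fin 4, (i = 0 ∨ i = 1) ∧ (flip (Bs i) η e).1 = m e := by
      rcases le_total (η e).2 (η e).1 with h | h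
      · exact ⟨0, Or.inl rfl, by rw [← hη e, max_eq_left h]; simp [hBs, flip]⟩
      · exact ⟨1, Or.inr rfl, by rw [← hη e, max_eq_right h]; simp [hBs, flip]⟩
    have htop : top M (fun a => (flip (Bs i) η a).1) = m e := by
      refine le_antisymm (Finset.sup_le fun a ha => le_trans ?_ (hem a ha)) ?_
      · exact (le_max_left _ _).trans ((max_flip (Bs i) η a).trans (hη a)).le
      · rw [← hi]; exact le_sup (f := fun a => (flip (Bs i) η a).1) he
    have h1 : opt M (fun a => (η a).2) ≤ 5 * m e +
        2 * totalGain M L (flip (Bs i) η) := by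
      refine (opt_le_levels M L hL (fun a => (flip (Bs i) η a).1) _
        (fun a => (flip (Bs i) η a).2) e _ htop (fun a ha => (hle2 a).trans (hem a ha)) ?_).trans ?_
      · intro a hae
        rcases hi01 with rfl | rfl <;> simp [hBs, flip, hae]
      · gcongr
        exact le_add_right le_rfl
    -- the maximum as a value
    obtain ⟨j, hje, hjf⟩ : ∃ j : Fin 4, (flip (Bs j) η e).2 = m e ∧
        (f ≠ e → (flip (Bs j) η f).1 = m f) := by
      by_cases hfe : f = e
      · rcases le_total (η e).1 (η e).2 with h | h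
        · exact ⟨0, by rw [← hη e, max_eq_right h]; simp [hBs, flip], fun hh => absurd hfe hh⟩
        · exact ⟨1, by rw [← hη e, max_eq_left h]; simp [hBs, flip], fun hh => absurd hfe hh⟩
      · rcases le_total (η e).1 (η e).2 with h | h <;>
          rcases le_total (η f).2 (η f).1 with h' | h'
        · exact ⟨0, by rw [← hη e, max_eq_right h]; simp [hBs, flip],
            fun _ => by rw [← hη f, max_eq_left h']; simp [hBs, flip]⟩
        · exact ⟨2, by rw [← hη e, max_eq_right h]; simp [hBs, flip, Ne.symm hfe],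
            fun _ => by rw [← hη f, max_eq_right h']; simp [hBs, flip]⟩
        · exact ⟨1, by rw [← hη e, max_eq_left h]; simp [hBs, flip],
            fun _ => by rw [← hη f, max_eq_left h']; simp [hBs, flip, hfe]⟩
        · exact ⟨3, by rw [← hη e, max_eq_left h]; simp [hBs, flip, Finset.mem_symmDiff, Ne.symm hfe],
            fun _ => by rw [← hη f, max_eq_right h']; simp [hBs, flip, Finset.mem_symmDiff, hfe]⟩
    have h2 : m e ≤ totalGain M L (flip (Bs j) η) := by
      rw [← hje]
      refine top_le_gain M L _ e he (fun a ha => ?_) fun a ha hae => ?_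
      · rw [hje]
        exact ((le_max_left _ _).trans ((max_flip (Bs j) η a).trans (hη a)).le).trans (hem a ha)
      · rcases hf with ⟨-, hf⟩ | ⟨hfn, hfe, hfm⟩
        · exact absurd (hf a ha) hae
        · calc (flip (Bs j) η a).2 ≤ m a :=
              (le_max_right _ _).trans ((max_flip (Bs j) η a).trans (hη a)).le
            _ ≤ m f := hfm a ha hae
            _ = (flip (Bs j) η f).1 := (hjf hfe).symm
            _ ≤ _ := le_sup (f := fun a => (flip (Bs j) η a).1) hfn
    have hS : ∀ k, totalGain M L (flip (Bs k) η) ≤ ∑ k, totalGain M L (flip (Bs k) η) :=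
      fun k => single_le_sum (f := fun k => totalGain M L (flip (Bs k) η)) (fun _ _ => zero_le)
        (mem_univ k)
    calc opt M (fun a => (η a).2) ≤ 5 * m e + 2 * totalGain M L (flip (Bs i) η) := h1
      _ ≤ 5 * (∑ k, totalGain M L (flip (Bs k) η)) + 2 * ∑ k, totalGain M L (flip (Bs k) η) := by
          gcongr
          · exact h2.trans (hS j)
          · exact hS i
      _ = 7 * ∑ k, totalGain M L (flip (Bs k) η) := by ring
  calc ∑ A : Finset α, opt M (fun a => (flip A ω a).2)
      ≤ ∑ A : Finset α, 7 * ∑ i, totalGain M L (flip (Bs i) (flip A ω)) :=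
        sum_le_sum fun A _ => key _ fun a => max_flip A ω a
    _ = 7 * ∑ i, ∑ A : Finset α, totalGain M L (flip (Bs i) (flip A ω)) := by
        rw [← mul_sum, sum_comm]
    _ = 7 * ∑ _i : Fin 4, ∑ A : Finset α, totalGain M L (flip A ω) := by
        simp only [sum_comp_flip _ (totalGain M L) ω]
    _ = _ := by simp only [sum_const, card_univ, Fintype.card_fin, nsmul_eq_mul]; push_cast; ring

end Vale.Agent.P331
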