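import Vale.Agent.P331.Defs

/-!
The randomised threshold rule and pointwise lower bounds for its value.
-/

namespace Vale.Agent.P331

open Finset MeasureTheory
open scoped NNReal

variable {α : Type} [Fintype α] (M : Matroid α) (L : ℕ)

open Classical in
/-- The elements that are independent as singletons. -/
noncomputable def nonloops : Finset α :=
  univ.filter fun a => M.Indep ({a} : Set α)

/-- The largest sampled value of a nonloop. -/
noncomputable def top (S : α → ℝ≥0) : ℝ≥0 := (nonloops M).sup S

/-- The threshold test of option `k`. -/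
def passes (S : α → ℝ≥0) (k : Fin (L + 2)) (v : ℝ≥0) : Prop :=
  if (k : ℕ) ≤ L then top M S / 2 ^ (k : ℕ) ≤ v else top M S < v

open Classical in
/-- The rule: accept what passes the threshold and keeps independence. -/
noncomputable def thresholdRule [DecidableEq α] (S : α → ℝ≥0) (k : Fin (L + 2)) (A : Finset α)
    (e : α) (v : ℝ≥0) : Bool :=
  decide (passes M L S k v ∧ M.Indep ((insert e A : Finset α) : Set α))

section run

variable [DecidableEq α] (S V : α → ℝ≥0) (k : Fin (L + 2))

theorem accepted_spec (l : List α) : ∀ A : Finset α, M.Indep (A : Set α) →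
    let R := accepted (thresholdRule M L) S k V l A
    M.Indep (R : Set α) ∧ A ⊆ R ∧ (∀ a ∈ R, a ∈ A ∨ passes M L S k (V a)) ∧
      ∀ a ∈ l, passes M L S k (V a) → a ∈ R ∨ ¬ M.Indep ((insert a R : Finset α) : Set α) := by
  induction l with
  | nil => intro A hA; exact ⟨hA, subset_rfl, fun a ha => Or.inl ha, fun a ha => by simp at ha⟩
  | cons e l ih =>
    intro A hA
    by_cases h : thresholdRule M L S k A e (V e) = true
    · have h' := h
      simp only [thresholdRule, decide_eq_true_eq] at h'
      obtain ⟨h1, h2, h3, h4⟩ := ih _ h'.2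
      simp only [accepted, h, if_true]
      refine ⟨h1, (subset_insert e A).trans h2, fun a ha => ?_, fun a ha hp => ?_⟩
      · rcases h3 a ha with h5 | h5
        · rcases mem_insert.1 h5 with rfl | h6
          · exact Or.inr h'.1
          · exact Or.inl h6
        · exact Or.inr h5
      · rcases List.mem_cons.1 ha with rfl | ha
        · exact Or.inl (h2 (mem_insert_self _ _))
        · exact h4 a ha hp
    · have h' := h
      simp only [thresholdRule, decide_eq_true_eq, not_and] at h'
      obtain ⟨h1, h2, h3, h4⟩ := ih A hA
      simp only [accepted, h]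
      refine ⟨h1, h2, h3, fun a ha hp => ?_⟩
      rcases List.mem_cons.1 ha with rfl | ha
      · exact Or.inr fun hI => h' hp (hI.subset (by
          exact_mod_cast insert_subset_insert a h2))
      · exact h4 a ha hp

variable {l : List α} (hl : ∀ a, a ∈ l)

theorem accepted_indep : M.Indep ((accepted (thresholdRule M L) S k V l ∅ : Finset α) : Set α) :=
  (accepted_spec M L S V k l ∅ (by simp)).1

theorem passes_of_mem {a : α} (ha : a ∈ accepted (thresholdRule M L) S k V l ∅) :
    passes M L S k (V a) := by
  rcases (accepted_spec M L S V k l ∅ (by simp)).2.2.1 a ha with h | h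
  · simp at h
  · exact h

include hl in
theorem card_le_accepted {I : Finset α} (hI : M.Indep (I : Set α))
    (hp : ∀ a ∈ I, passes M L S k (V a)) :
    I.card ≤ (accepted (thresholdRule M L) S k V l ∅).card := by
  by_contra hlt
  push Not at hlt
  obtain ⟨hR, -, -, hmax⟩ := accepted_spec M L S V k l ∅ (by simp)
  set R := accepted (thresholdRule M L) S k V l ∅
  obtain ⟨e, he, hins⟩ := hR.augment hI (by simpa [Set.encard_coe_eq_coe_finsetCard] using hlt)
  simp only [Set.mem_sdiff, mem_coe] at he
  rcases hmax e (hl e) (hp e he.1) with h | h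
  · exact he.2 h
  · exact h (by rwa [coe_insert])

end run

open Classical in
/-- Lower bound for the value of a threshold option. -/
noncomputable def levelGain (S V : α → ℝ≥0) (j : ℕ) : ℝ≥0 :=
  (univ.filter fun I : Finset α => M.Indep (I : Set α)).sup fun I =>
    if ∀ a ∈ I, top M S / 2 ^ j ≤ V a then (top M S / 2 ^ j) * I.card else 0

open Classical in
/-- Lower bound for the value of the strict option: the only element above the threshold. -/
noncomputable def singleGain (S V : α → ℝ≥0) : ℝ≥0 :=
  (nonloops M).sup fun a =>
    if top M S < V a ∧ ∀ b ∈ nonloops M, b ≠ a → V b ≤ top M S then V a else 0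

/-- The sum of the lower bounds over the options. -/
noncomputable def totalGain (ω : α → ℝ≥0 × ℝ≥0) : ℝ≥0 :=
  (∑ j ∈ range (L + 1), levelGain M (fun a => (ω a).1) (fun a => (ω a).2) j) +
    singleGain M (fun a => (ω a).1) (fun a => (ω a).2)

variable [DecidableEq α] (S V : α → ℝ≥0) {l : List α} (hl : ∀ a, a ∈ l)

include hl in
theorem levelGain_le (k : Fin (L + 2)) (hk : (k : ℕ) ≤ L) :
    levelGain M S V k ≤ ∑ a ∈ accepted (thresholdRule M L) S k V l ∅, V a := by
  classical
  refine Finset.sup_le fun I hI => ?_
  split_ifs with h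
  · have hc := card_le_accepted M L S V k hl (mem_filter.1 hI).2
      (fun a ha => by simp only [passes, hk, if_true]; exact h a ha)
    calc top M S / 2 ^ (k : ℕ) * I.card
        ≤ top M S / 2 ^ (k : ℕ) * (accepted (thresholdRule M L) S k V l ∅).card := by gcongr
      _ = ∑ _a ∈ accepted (thresholdRule M L) S k V l ∅, top M S / 2 ^ (k : ℕ) := by
          rw [sum_const, nsmul_eq_mul, mul_comm]
      _ ≤ _ := sum_le_sum fun a ha => by
          have := passes_of_mem M L S V k ha
          simpa [passes, hk] using this
  · exact zero_le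

include hl in
theorem singleGain_le :
    singleGain M S V ≤ ∑ a ∈ accepted (thresholdRule M L) S (Fin.last (L + 1)) V l ∅, V a := by
  classical
  refine Finset.sup_le fun a ha => ?_
  split_ifs with h
  · have hk : ¬ ((Fin.last (L + 1) : Fin (L + 2)) : ℕ) ≤ L := by simp
    have hp : ∀ v, passes M L S (Fin.last (L + 1)) v ↔ top M S < v := fun v => by
      simp only [passes, hk, if_false]
    have hne : 1 ≤ (accepted (thresholdRule M L) S (Fin.last (L + 1)) V l ∅).card := by
      simpa using card_le_accepted M L S V _ hl (I := {a})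
        (by simpa [nonloops] using ha) (by simpa [hp] using h.1)
    obtain ⟨b, hb⟩ := card_pos.1 hne
    have hbn : b ∈ nonloops M := by
      simpa [nonloops] using (accepted_indep M L S V (Fin.last (L + 1)) (l := l)).subset
        (Set.singleton_subset_iff.2 (mem_coe.2 hb))
    have hba : b = a := by
      by_contra hne'
      exact absurd (h.2 b hbn hne') (not_le.2 ((hp _).1 (passes_of_mem M L S V _ hb)))
    subst hba
    exact single_le_sum (fun _ _ => zero_le) hb
  · exact zero_le

theorem totalGain_le (ω : α → ℝ≥0 × ℝ≥0) (π : Fin (L + 2) → List α)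
    (hπ : ∀ k a, a ∈ π k) :
    totalGain M L ω ≤ ∑ k, ∑ a ∈ accepted (thresholdRule M L) (fun a => (ω a).1) k
      (fun a => (ω a).2) (π k) ∅, (ω a).2 := by
  rw [totalGain, ← Fin.sum_univ_eq_sum_range]
  rw [Fin.sum_univ_castSucc (n := L + 1)]
  gcongr with i
  · exact levelGain_le M L _ _ (hπ i.castSucc) i.castSucc (by simp [Nat.le_of_lt_succ i.isLt])
  · exact singleGain_le M L _ _ (hπ _)

end Vale.Agent.P331
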